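import Vale.Agent.P302.A11.Main

namespace Vale.Agent.Results.P302.GapA

open Vale.Agent.P302

/-- There is a bin packing instance whose optimal value exceeds the value of the configuration
linear program by at least `349 / 288 > 1.21`. -/
theorem result : ∃ (n : ℕ) (a : Fin n → ℚ), IsInstance a ∧
    (349 / 288 : ℝ) ≤ (OPT a : ℝ) - LP a := by
  obtain ⟨h1, h2, h3⟩ := A11.main
  refine ⟨_, inst A11.cap A11.items, h1, ?_⟩
  have h4 : (12 : ℝ) ≤ (OPT (inst A11.cap A11.items) : ℝ) := by exact_mod_cast h2
  linarith

end Vale.Agent.Results.P302.GapA
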