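import Vale.Agent.P302.B19.Main

namespace Vale.Agent.Results.P302.GapB

open Vale.Agent.P302

/-- There is a bin packing instance whose optimal value exceeds the value of the configuration
linear program by at least `2881 / 2304 > 5 / 4`. -/
theorem result : ∃ (n : ℕ) (a : Fin n → ℚ), IsInstance a ∧
    (2881 / 2304 : ℝ) ≤ (OPT a : ℝ) - LP a := by
  obtain ⟨h1, h2, h3⟩ := B19.main
  refine ⟨_, inst B19.cap B19.items, h1, ?_⟩
  have h4 : (20 : ℝ) ≤ (OPT (inst B19.cap B19.items) : ℝ) := by exact_mod_cast h2
  linarith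

end Vale.Agent.Results.P302.GapB
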